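import Mathlib

namespace Vale.Agent.Lib.P015

open Complex

/-- A product of two non-units of the Gaussian integers is not prime. -/
lemma not_prime_mul_of_not_isUnit {a b : GaussianInt} (ha : ¬ IsUnit a) (hb : ¬ IsUnit b) :
    ¬ Prime (a * b) := by
  intro h
  have := h.irreducible.isUnit_or_isUnit rfl
  tauto

lemma norm_eq_one_of_isUnit {x : GaussianInt} (h : IsUnit x) :
    x.re * x.re + x.im * x.im = 1 := by
  rw [← Zsqrtd.norm_eq_one_iff] at h
  have h0 := GaussianInt.norm_nonneg x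
  have h1 : x.norm = 1 := by omega
  rw [Zsqrtd.norm_def] at h1
  linarith

lemma eq_zero_of_isUnit_one_add_three_mul {s : GaussianInt}
    (h : IsUnit (1 + 3 * s)) : s = 0 := by
  have h1 := norm_eq_one_of_isUnit h
  have hre : (1 + 3 * s).re = 1 + 3 * s.re := by simp
  have him : (1 + 3 * s).im = 3 * s.im := by simp
  rw [hre, him] at h1
  have ha : s.re = 0 := by
    by_contra hne
    rcases lt_or_gt_of_ne hne with hlt | hgt
    · have : s.re ≤ -1 := by omega
      nlinarith [mul_self_nonneg s.im]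
    · have : 1 ≤ s.re := by omega
      nlinarith [mul_self_nonneg s.im]
  have hb : s.im = 0 := by
    rw [ha] at h1
    have : s.im * s.im = 0 := by linarith
    exact mul_self_eq_zero.mp this
  exact Zsqrtd.ext ha hb

lemma not_isUnit_of_two_le_abs_re {x : GaussianInt} (h : 2 ≤ |x.re|) : ¬ IsUnit x := by
  intro hu
  have h1 := norm_eq_one_of_isUnit hu
  have h2 : 4 ≤ x.re * x.re := by
    have := abs_mul_abs_self x.re
    nlinarith [abs_nonneg x.re]
  nlinarith [mul_self_nonneg x.im]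

lemma not_isUnit_of_two_le_abs_im {x : GaussianInt} (h : 2 ≤ |x.im|) : ¬ IsUnit x := by
  intro hu
  have h1 := norm_eq_one_of_isUnit hu
  have h2 : 4 ≤ x.im * x.im := by
    have := abs_mul_abs_self x.im
    nlinarith [abs_nonneg x.im]
  nlinarith [mul_self_nonneg x.re]

/-- The factorial trick: all translates `z₀ + w`, `w ∈ W`, of the point
`z₀ = c + 3 * (∏ v ∈ W, (c + v)) * t` are non-prime. -/
lemma not_prime_of_mem (W : Finset GaussianInt) (c : GaussianInt)
    (hW : ∀ w ∈ W, ¬ IsUnit (c + w) ∧ c + w ≠ 0) (t : GaussianInt) (ht : t ≠ 0) :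
    ∀ w ∈ W, ¬ Prime (c + 3 * (∏ v ∈ W, (c + v)) * t + w) := by
  intro w hw
  have hprod : ∏ v ∈ W, (c + v) = (c + w) * ∏ v ∈ W.erase w, (c + v) :=
    (Finset.mul_prod_erase W _ hw).symm
  have hfac : c + 3 * (∏ v ∈ W, (c + v)) * t + w
      = (c + w) * (1 + 3 * ((∏ v ∈ W.erase w, (c + v)) * t)) := by
    rw [hprod]; ring
  rw [hfac]
  apply not_prime_mul_of_not_isUnit (hW w hw).1
  intro hu
  have h0 := eq_zero_of_isUnit_one_add_three_mul hu
  rcases mul_eq_zero.mp h0 with h | h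
  · rw [Finset.prod_eq_zero_iff] at h
    obtain ⟨v, hv, hv0⟩ := h
    exact (hW v (Finset.mem_of_mem_erase hv)).2 hv0
  · exact ht h

/-- The square box of half-side `R` in the Gaussian integers. -/
noncomputable def box (R : ℤ) : Finset GaussianInt :=
  (Finset.Icc (-R) R ×ˢ Finset.Icc (-R) R).image (fun p => (⟨p.1, p.2⟩ : GaussianInt))

lemma mem_box {R : ℤ} {w : GaussianInt} : w ∈ box R ↔ |w.re| ≤ R ∧ |w.im| ≤ R := by
  unfold box
  simp only [Finset.mem_image, Finset.mem_product, Finset.mem_Icc, Prod.exists]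
  constructor
  · rintro ⟨a, b, ⟨⟨ha1, ha2⟩, hb1, hb2⟩, rfl⟩
    exact ⟨abs_le.mpr ⟨ha1, ha2⟩, abs_le.mpr ⟨hb1, hb2⟩⟩
  · rintro ⟨h1, h2⟩
    exact ⟨w.re, w.im, ⟨abs_le.mp h1, abs_le.mp h2⟩, rfl⟩

end Vale.Agent.Lib.P015
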