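import Vale.Agent.Lib.P015.Walk

namespace Vale.Agent.Lib.P015

open Complex

lemma norm_toComplex_le (t : GaussianInt) : ‖(t : ℂ)‖ ≤ |(t.re : ℝ)| + |(t.im : ℝ)| := by
  have h := Complex.norm_le_abs_re_add_abs_im (t : ℂ)
  rwa [← GaussianInt.intCast_re, ← GaussianInt.intCast_im] at h

/-- Dirichlet with a bound on the size of the multiplier. -/
lemma exists_small_im_bdd (q : ℂ) :
    ∃ t : GaussianInt, t ≠ 0 ∧ |(q * (t : ℂ)).im| ≤ 1 ∧ ‖(t : ℂ)‖ ≤ 2 * ‖q‖ + 5 := by
  have hre : |q.re| ≤ ‖q‖ := Complex.abs_re_le_norm q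
  have him : |q.im| ≤ ‖q‖ := Complex.abs_im_le_norm q
  have hq0 : 0 ≤ ‖q‖ := norm_nonneg q
  -- the core approximation step
  have core : ∀ x y : ℝ, |y| ≤ |x| → x ≠ 0 → ∃ j k : ℤ, 0 < k ∧
      |x * ((k : ℝ) * (y / x) - j)| ≤ 1 ∧ |(k : ℝ)| + |(j : ℝ)| ≤ 2 * |x| + 5 := by
    intro x y hyx hx
    have hx0 : 0 < |x| := abs_pos.mpr hx
    obtain ⟨j, k, hk0, hk1, hjk⟩ :=
      Real.exists_int_int_abs_mul_sub_le (y / x) (Nat.succ_pos ⌈|x|⌉₊)
    have hN1 : |x| ≤ (⌈|x|⌉₊ : ℝ) := Nat.le_ceil _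
    have hN2 : (⌈|x|⌉₊ : ℝ) < |x| + 1 := Nat.ceil_lt_add_one hx0.le
    have hkr : (0 : ℝ) < k := by exact_mod_cast hk0
    have hk1r : (k : ℝ) ≤ (⌈|x|⌉₊ : ℝ) + 1 := by
      have : (k : ℝ) ≤ ((⌈|x|⌉₊.succ : ℕ) : ℝ) := by exact_mod_cast hk1
      simpa using this
    have hξ : |y / x| ≤ 1 := by
      rw [abs_div, div_le_one hx0]
      exact hyx
    have hsmall : |(k : ℝ) * (y / x) - j| ≤ 1 / ((⌈|x|⌉₊.succ : ℝ) + 1) := hjk
    have hpos : (0 : ℝ) < (⌈|x|⌉₊.succ : ℝ) + 1 := by positivity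
    refine ⟨j, k, hk0, ?_, ?_⟩
    · rw [abs_mul]
      calc |x| * |(k : ℝ) * (y / x) - j| ≤ |x| * (1 / ((⌈|x|⌉₊.succ : ℝ) + 1)) := by gcongr
        _ ≤ 1 := by
          rw [mul_one_div, div_le_one hpos]
          push_cast
          linarith
    · have h1 : |(k : ℝ) * (y / x) - j| ≤ 1 := by
        have : 1 / ((⌈|x|⌉₊.succ : ℝ) + 1) ≤ 1 := by
          rw [div_le_one hpos]
          push_cast
          linarith [Nat.cast_nonneg (α := ℝ) ⌈|x|⌉₊]
        linarith
      have h2 : |(k : ℝ) * (y / x)| ≤ k := by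
        rw [abs_mul, abs_of_pos hkr]
        calc (k : ℝ) * |y / x| ≤ k * 1 := by gcongr
          _ = k := mul_one _
      have h3 : |(j : ℝ)| ≤ k + 1 := by
        have e : (j : ℝ) = (k : ℝ) * (y / x) - ((k : ℝ) * (y / x) - j) := by ring
        rw [e]
        have := abs_sub ((k : ℝ) * (y / x)) ((k : ℝ) * (y / x) - j)
        linarith
      rw [abs_of_pos hkr]
      linarith
  by_cases hcase : |q.re| ≤ |q.im|
  · by_cases hβ : q.im = 0
    · refine ⟨1, one_ne_zero, ?_, ?_⟩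
      · simp [hβ]
      · simp only [GaussianInt.toComplex_one, norm_one]
        linarith
    · obtain ⟨j, k, hk0, h1, h2⟩ := core q.im q.re hcase hβ
      refine ⟨⟨-j, k⟩, ?_, ?_, ?_⟩
      · intro h
        have := congrArg Zsqrtd.im h
        simp at this
        omega
      · have e : (q * ((⟨-j, k⟩ : GaussianInt) : ℂ)).im
            = q.im * ((k : ℝ) * (q.re / q.im) - j) := by
          rw [GaussianInt.toComplex_def']
          simp [Complex.mul_im]
          field_simp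
          ring
        rw [e]
        exact h1
      · have h3 := norm_toComplex_le (⟨-j, k⟩ : GaussianInt)
        simp only [Int.cast_neg, abs_neg] at h3
        linarith
  · push Not at hcase
    have hα : q.re ≠ 0 := by
      intro h
      rw [h, abs_zero] at hcase
      exact absurd hcase (not_lt.mpr (abs_nonneg _))
    obtain ⟨j, k, hk0, h1, h2⟩ := core q.re q.im hcase.le hα
    refine ⟨⟨k, -j⟩, ?_, ?_, ?_⟩
    · intro h
      have := congrArg Zsqrtd.re h
      simp at this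
      omega
    · have e : (q * ((⟨k, -j⟩ : GaussianInt) : ℂ)).im
          = q.re * ((k : ℝ) * (q.im / q.re) - j) := by
        rw [GaussianInt.toComplex_def']
        simp [Complex.mul_im]
        field_simp
        ring
      rw [e]
      exact h1
    · have h3 := norm_toComplex_le (⟨k, -j⟩ : GaussianInt)
      simp only [Int.cast_neg, abs_neg] at h3
      linarith

end Vale.Agent.Lib.P015
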