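import Vale.Agent.Lib.P015.Bdd

namespace Vale.Agent.Lib.P015

open Complex

lemma card_box_le (R : ℤ) (hR : 0 ≤ R) : ((box R).card : ℝ) ≤ (2 * (R : ℝ) + 1) ^ 2 := by
  have h1 : (box R).card ≤ (Finset.Icc (-R) R ×ˢ Finset.Icc (-R) R).card := Finset.card_image_le
  rw [Finset.card_product, Int.card_Icc] at h1
  have h2 : ((R + 1 - -R).toNat : ℝ) = 2 * (R : ℝ) + 1 := by
    have h3 : ((R + 1 - -R).toNat : ℤ) = R + 1 - -R := Int.toNat_of_nonneg (by omega)
    have h4 : (((R + 1 - -R).toNat : ℤ) : ℝ) = ((R + 1 - -R : ℤ) : ℝ) := by rw [h3]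
    push_cast at h4
    rw [h4]
    ring
  have h5 : ((box R).card : ℝ) ≤ ((R + 1 - -R).toNat : ℝ) * ((R + 1 - -R).toNat : ℝ) := by
    exact_mod_cast h1
  rw [h2] at h5
  nlinarith

lemma norm_mem_box_le {R : ℤ} {w : GaussianInt} (hw : w ∈ box R) : ‖(w : ℂ)‖ ≤ 2 * (R : ℝ) := by
  rw [mem_box] at hw
  have h := norm_toComplex_le w
  have h1 : |(w.re : ℝ)| ≤ R := by exact_mod_cast hw.1
  have h2 : |(w.im : ℝ)| ≤ R := by exact_mod_cast hw.2
  linarith

/-- the norm of the product defining the modulus is at most `Y ^ card`. -/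
lemma norm_prod_box_le (R : ℤ) (c : GaussianInt) (Y : ℝ)
    (hY : ‖(c : ℂ)‖ + 2 * (R : ℝ) ≤ Y) :
    ‖((∏ v ∈ box R, (c + v) : GaussianInt) : ℂ)‖ ≤ Y ^ (box R).card := by
  rw [show ((∏ v ∈ box R, (c + v) : GaussianInt) : ℂ)
      = ∏ v ∈ box R, ((c : ℂ) + (v : ℂ)) by
    rw [map_prod]
    apply Finset.prod_congr rfl
    intro v _
    rw [GaussianInt.toComplex_add]]
  rw [norm_prod]
  calc ∏ v ∈ box R, ‖(c : ℂ) + (v : ℂ)‖ ≤ ∏ _v ∈ box R, Y := by
        apply Finset.prod_le_prod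
        · intro v _
          exact norm_nonneg _
        · intro v hv
          have h1 := norm_add_le (c : ℂ) (v : ℂ)
          have h2 := norm_mem_box_le hv
          linarith
    _ = Y ^ (box R).card := by rw [Finset.prod_const]

/-- Prime-free boxes near the line `a + ℝ u`, beyond `B` in the direction `u`, with an
explicit bound on the modulus of the centre. -/
lemma exists_block_bdd {u : ℂ} (hu : ‖u‖ = 1) (a : ℂ) (R : ℤ) (hR : 0 ≤ R) (B : ℝ) :
    ∃ z0 : GaussianInt, |perp u ((z0 : ℂ) - a)| ≤ 2 ∧ B ≤ par u (z0 : ℂ) ∧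
      (∀ z : GaussianInt, |z.re - z0.re| ≤ R → |z.im - z0.im| ≤ R → ¬ Prime z) ∧
      ‖(z0 : ℂ)‖ ≤ Real.exp (2 * ((2 * (R : ℝ) + 1) ^ 2 * (|B| + 3 * ‖a‖ + 4 * R + 8))
        + (|B| + 3 * ‖a‖ + 4 * R + 8) + 34) := by
  have hRr : (0 : ℝ) ≤ R := by exact_mod_cast hR
  have ha0 : 0 ≤ ‖a‖ := norm_nonneg a
  have hB0 : 0 ≤ |B| := abs_nonneg B
  obtain ⟨S, hSdef⟩ : ∃ S : ℝ, S = |B| + 2 * ‖a‖ + 2 * R + 7 := ⟨_, rfl⟩
  have hpa := abs_le.mp (abs_par_le hu a)
  have hS1 : B - par u a + 1 ≤ S := by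
    have := le_abs_self B
    linarith [hpa.1]
  have hS2 : ‖a‖ + 2 * R + 6 ≤ S := by linarith
  have hS0 : 0 ≤ S := by linarith
  obtain ⟨p, hp⟩ : ∃ p : ℂ, p = a + S * u := ⟨_, rfl⟩
  obtain ⟨c, hc⟩ : ∃ c : GaussianInt, c = ⟨round p.re, round p.im⟩ := ⟨_, rfl⟩
  have hcp : ‖(c : ℂ) - p‖ ≤ 1 := by
    have h1 := Complex.norm_le_abs_re_add_abs_im ((c : ℂ) - p)
    have h2 : |((c : ℂ) - p).re| ≤ 1 / 2 := by
      rw [hc, GaussianInt.toComplex_def']
      simp only [Complex.sub_re, Complex.add_re, Complex.intCast_re, Complex.mul_re,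
        Complex.intCast_im, Complex.I_re, Complex.I_im, mul_zero, mul_one, sub_zero,
        add_zero]
      rw [abs_sub_comm]
      exact abs_sub_round p.re
    have h3 : |((c : ℂ) - p).im| ≤ 1 / 2 := by
      rw [hc, GaussianInt.toComplex_def']
      simp only [Complex.sub_im, Complex.add_im, Complex.intCast_im, Complex.mul_im,
        Complex.intCast_re, Complex.I_re, Complex.I_im, mul_zero, mul_one, zero_add,
        add_zero]
      rw [abs_sub_comm]
      exact abs_sub_round p.im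
    linarith
  have hc1 : (c : ℂ) - a = ((c : ℂ) - p) + S * u := by rw [hp]; ring
  have hperp_c : |perp u ((c : ℂ) - a)| ≤ 1 := by
    rw [hc1, perp_add, perp_real_mul hu, add_zero]
    exact (abs_perp_le hu _).trans hcp
  have hpar_c : par u a + S - 1 ≤ par u (c : ℂ) := by
    have h1 : (c : ℂ) = ((c : ℂ) - p) + (a + S * u) := by rw [hp]; ring
    have h2 : par u (c : ℂ) = par u ((c : ℂ) - p) + (par u a + S) := by
      conv_lhs => rw [h1]
      rw [par_add, par_add, par_real_mul hu]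
    have h3 := abs_le.mp ((abs_par_le hu ((c : ℂ) - p)).trans hcp)
    linarith [h3.1]
  have hnorm_c : 2 * (R : ℝ) + 5 ≤ ‖(c : ℂ)‖ := by
    have h1 := abs_par_le hu (c : ℂ)
    have h2 := le_abs_self (par u (c : ℂ))
    linarith [hpa.1]
  -- upper bound for the norm of `c`
  have hnorm_c_le : ‖(c : ℂ)‖ ≤ |B| + 3 * ‖a‖ + 2 * R + 8 := by
    have h1 : (c : ℂ) = ((c : ℂ) - p) + p := by ring
    have h2 : ‖p‖ ≤ ‖a‖ + S := by
      rw [hp]
      have := norm_add_le a ((S : ℂ) * u)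
      rw [norm_mul, hu, mul_one, Complex.norm_real, Real.norm_eq_abs, abs_of_nonneg hS0] at this
      exact this
    have h3 : ‖(c : ℂ)‖ ≤ ‖(c : ℂ) - p‖ + ‖p‖ := by
      conv_lhs => rw [h1]
      exact norm_add_le _ _
    linarith
  have hcoord : R + 2 < |c.re| ∨ R + 2 < |c.im| := by
    by_contra hcon
    push Not at hcon
    have h1 := Complex.norm_le_abs_re_add_abs_im (c : ℂ)
    rw [← GaussianInt.intCast_re, ← GaussianInt.intCast_im] at h1
    have h2 : ((|c.re| : ℤ) : ℝ) ≤ R + 2 := by exact_mod_cast hcon.1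
    have h3 : ((|c.im| : ℤ) : ℝ) ≤ R + 2 := by exact_mod_cast hcon.2
    rw [Int.cast_abs] at h2 h3
    linarith
  have hW : ∀ w ∈ box R, ¬ IsUnit (c + w) ∧ c + w ≠ 0 := by
    intro w hw
    rw [mem_box] at hw
    rcases hcoord with h | h
    · have h2 : 2 ≤ |(c + w).re| := by
        have e : (c + w).re = c.re + w.re := by simp
        rw [e]
        have := abs_sub_abs_le_abs_sub c.re (-w.re)
        rw [abs_neg, sub_neg_eq_add] at this
        linarith [hw.1]
      refine ⟨not_isUnit_of_two_le_abs_re h2, ?_⟩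
      intro h0
      rw [h0] at h2
      simp at h2
    · have h2 : 2 ≤ |(c + w).im| := by
        have e : (c + w).im = c.im + w.im := by simp
        rw [e]
        have := abs_sub_abs_le_abs_sub c.im (-w.im)
        rw [abs_neg, sub_neg_eq_add] at this
        linarith [hw.2]
      refine ⟨not_isUnit_of_two_le_abs_im h2, ?_⟩
      intro h0
      rw [h0] at h2
      simp at h2
  obtain ⟨Q, hQ⟩ : ∃ Q : GaussianInt, Q = 3 * ∏ v ∈ box R, (c + v) := ⟨_, rfl⟩
  -- size of `Q`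
  obtain ⟨Y1, hY1⟩ : ∃ Y1 : ℝ, Y1 = |B| + 3 * ‖a‖ + 4 * R + 8 := ⟨_, rfl⟩
  have hY1_1 : 1 ≤ Y1 := by linarith
  obtain ⟨X, hX⟩ : ∃ X : ℝ, X = (2 * (R : ℝ) + 1) ^ 2 * Y1 := ⟨_, rfl⟩
  have hX0 : 0 ≤ X := by rw [hX]; positivity
  have hQnorm : ‖(Q : ℂ)‖ ≤ 3 * Real.exp X := by
    rw [hQ, GaussianInt.toComplex_mul, norm_mul]
    have h3 : ‖((3 : GaussianInt) : ℂ)‖ = 3 := by
      rw [show ((3 : GaussianInt) : ℂ) = (3 : ℂ) by simp [GaussianInt.toComplex_def]]
      simp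
    rw [h3]
    have h1 := norm_prod_box_le R c Y1 (by linarith)
    have h2 : Y1 ^ (box R).card ≤ Real.exp X := by
      have e1 : Y1 ≤ Real.exp Y1 := by linarith [Real.add_one_le_exp Y1]
      calc Y1 ^ (box R).card ≤ (Real.exp Y1) ^ (box R).card :=
            pow_le_pow_left₀ (by linarith) e1 _
        _ = Real.exp (((box R).card : ℝ) * Y1) := by rw [← Real.exp_nat_mul]
        _ ≤ Real.exp X := by
            apply Real.exp_le_exp.mpr
            rw [hX]
            have := card_box_le R hR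
            gcongr
    linarith
  -- Dirichlet alignment with a bound on the multiplier
  obtain ⟨t, ht0, htperp, htpar, htnorm⟩ : ∃ t : GaussianInt, t ≠ 0 ∧
      |perp u ((Q : ℂ) * (t : ℂ))| ≤ 1 ∧ 0 ≤ par u ((Q : ℂ) * (t : ℂ)) ∧
      ‖(t : ℂ)‖ ≤ 2 * ‖(Q : ℂ)‖ + 5 := by
    obtain ⟨t0, ht0, h, hn⟩ := exists_small_im_bdd ((Q : ℂ) * (starRingEnd ℂ) u)
    rw [norm_rot hu] at hn
    have e : (Q : ℂ) * (starRingEnd ℂ) u * (t0 : ℂ) = (Q : ℂ) * (t0 : ℂ) * (starRingEnd ℂ) u := by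
      ring
    rw [e] at h
    by_cases hsign : 0 ≤ par u ((Q : ℂ) * (t0 : ℂ))
    · exact ⟨t0, ht0, h, hsign, hn⟩
    · refine ⟨-t0, neg_ne_zero.mpr ht0, ?_, ?_, ?_⟩
      · have e2 : (Q : ℂ) * ((-t0 : GaussianInt) : ℂ) = -((Q : ℂ) * (t0 : ℂ)) := by
          rw [GaussianInt.toComplex_neg]; ring
        rw [e2, perp_neg, abs_neg]
        exact h
      · have e2 : (Q : ℂ) * ((-t0 : GaussianInt) : ℂ) = -((Q : ℂ) * (t0 : ℂ)) := by
          rw [GaussianInt.toComplex_neg]; ring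
        rw [e2, par_neg]
        push Not at hsign
        linarith
      · rw [GaussianInt.toComplex_neg, norm_neg]
        exact hn
  refine ⟨c + Q * t, ?_, ?_, ?_, ?_⟩
  · have e : ((c + Q * t : GaussianInt) : ℂ) - a = ((c : ℂ) - a) + (Q : ℂ) * (t : ℂ) := by
      rw [GaussianInt.toComplex_add, GaussianInt.toComplex_mul]; ring
    rw [e, perp_add]
    have := abs_add_le (perp u ((c : ℂ) - a)) (perp u ((Q : ℂ) * (t : ℂ)))
    linarith
  · have e : ((c + Q * t : GaussianInt) : ℂ) = (c : ℂ) + (Q : ℂ) * (t : ℂ) := by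
      rw [GaussianInt.toComplex_add, GaussianInt.toComplex_mul]
    rw [e, par_add]
    linarith
  · intro z hz1 hz2
    have hw : z - (c + Q * t) ∈ box R := by
      rw [mem_box]
      constructor
      · simpa using hz1
      · simpa using hz2
    have := not_prime_of_mem (box R) c hW t ht0 _ hw
    have e : c + 3 * (∏ v ∈ box R, (c + v)) * t + (z - (c + Q * t)) = z := by
      rw [hQ]; ring
    rwa [e] at this
  · have e : ((c + Q * t : GaussianInt) : ℂ) = (c : ℂ) + (Q : ℂ) * (t : ℂ) := by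
      rw [GaussianInt.toComplex_add, GaussianInt.toComplex_mul]
    rw [e]
    have h1 := norm_add_le (c : ℂ) ((Q : ℂ) * (t : ℂ))
    rw [norm_mul] at h1
    have hQ0 : 0 ≤ ‖(Q : ℂ)‖ := norm_nonneg _
    have ht0' : 0 ≤ ‖(t : ℂ)‖ := norm_nonneg _
    have hE1 : 1 ≤ Real.exp X := by
      have := Real.add_one_le_exp X
      linarith
    have h2 : ‖(Q : ℂ)‖ * ‖(t : ℂ)‖ ≤ 3 * Real.exp X * (2 * (3 * Real.exp X) + 5) := by
      apply mul_le_mul hQnorm (by linarith) ht0' (by positivity)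
    have h3 : 3 * Real.exp X * (2 * (3 * Real.exp X) + 5) ≤ 33 * Real.exp (2 * X) := by
      have e2 : Real.exp (2 * X) = Real.exp X * Real.exp X := by
        rw [← Real.exp_add]; ring_nf
      rw [e2]
      nlinarith
    have h4 : ‖(c : ℂ)‖ ≤ Y1 := by linarith
    have h5 : Y1 ≤ Real.exp Y1 := by linarith [Real.add_one_le_exp Y1]
    have h6 : (34 : ℝ) ≤ Real.exp 34 := by linarith [Real.add_one_le_exp (34 : ℝ)]
    have hEY : 1 ≤ Real.exp Y1 := by linarith
    have hE2X : 1 ≤ Real.exp (2 * X) := by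
      have := Real.add_one_le_exp (2 * X)
      linarith
    have h7 : Real.exp (2 * X + Y1 + 34) = Real.exp (2 * X) * Real.exp Y1 * Real.exp 34 := by
      rw [← Real.exp_add, ← Real.exp_add]
    have h8 : Y1 + 33 * Real.exp (2 * X) ≤ Real.exp (2 * X) * Real.exp Y1 * Real.exp 34 := by
      have p1 : Real.exp Y1 ≤ Real.exp (2 * X) * Real.exp Y1 := by nlinarith
      have p2 : Real.exp (2 * X) ≤ Real.exp (2 * X) * Real.exp Y1 := by nlinarith
      have p3 : 0 ≤ Real.exp (2 * X) * Real.exp Y1 := by positivity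
      nlinarith
    rw [← hY1, ← hX, h7]
    linarith

end Vale.Agent.Lib.P015
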