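import Vale.Agent.Lib.P015.Walk

namespace Vale.Agent.Lib.P015

open Complex

/-- Prime-free disks of any radius centred on the line `a + ℝ u` (`‖u‖ = 1`), arbitrarily
far in the direction `u`. -/
theorem exists_primeFree_disk_unit (a u : ℂ) (hu : ‖u‖ = 1) (R B : ℝ) :
    ∃ s : ℝ, B ≤ s ∧ ∀ z : GaussianInt, ‖(z : ℂ) - (a + s * u)‖ ≤ R → ¬ Prime z := by
  obtain ⟨R', hR'⟩ := exists_int_ge (max R 0 + 2)
  have hR0 : 0 ≤ R' := by
    have h1 : (0 : ℝ) ≤ max R 0 := le_max_right _ _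
    have : (0 : ℝ) ≤ R' := by linarith
    exact_mod_cast this
  obtain ⟨z0, hz1, hz2, hz3⟩ := exists_block hu a R' hR0 (B + par u a)
  obtain ⟨s0, hs0⟩ : ∃ s0 : ℝ, s0 = par u ((z0 : ℂ) - a) := ⟨_, rfl⟩
  refine ⟨s0, ?_, ?_⟩
  · rw [hs0, par_sub]
    linarith
  · intro z hz
    have hfoot : ‖(z0 : ℂ) - (a + (s0 : ℂ) * u)‖ ≤ 2 := by
      have e : (z0 : ℂ) - (a + (s0 : ℂ) * u) = ((z0 : ℂ) - a) - (s0 : ℂ) * u := by ring
      have h1 := norm_le_par_add_perp hu ((z0 : ℂ) - (a + (s0 : ℂ) * u))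
      have h2 : par u ((z0 : ℂ) - (a + (s0 : ℂ) * u)) = 0 := by
        rw [e, par_sub, par_real_mul hu, hs0, sub_self]
      have h3 : perp u ((z0 : ℂ) - (a + (s0 : ℂ) * u)) = perp u ((z0 : ℂ) - a) := by
        rw [e, perp_sub, perp_real_mul hu, sub_zero]
      rw [h2, h3, abs_zero, zero_add] at h1
      linarith
    have hdist : ‖(z : ℂ) - (z0 : ℂ)‖ ≤ R' := by
      have e : (z : ℂ) - (z0 : ℂ) = ((z : ℂ) - (a + (s0 : ℂ) * u))
          - ((z0 : ℂ) - (a + (s0 : ℂ) * u)) := by ring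
      rw [e]
      have h1 := norm_sub_le ((z : ℂ) - (a + (s0 : ℂ) * u)) ((z0 : ℂ) - (a + (s0 : ℂ) * u))
      have h2 : R ≤ max R 0 := le_max_left _ _
      linarith
    apply hz3 z
    · have h1 := Complex.abs_re_le_norm ((z : ℂ) - (z0 : ℂ))
      rw [← toComplex_sub_re, ← Int.cast_abs] at h1
      have : ((|z.re - z0.re| : ℤ) : ℝ) ≤ R' := by linarith
      exact_mod_cast this
    · have h1 := Complex.abs_im_le_norm ((z : ℂ) - (z0 : ℂ))
      rw [← toComplex_sub_im, ← Int.cast_abs] at h1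
      have : ((|z.im - z0.im| : ℤ) : ℝ) ≤ R' := by linarith
      exact_mod_cast this

end Vale.Agent.Lib.P015
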