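import Vale.Agent.Lib.P015.BlockBdd

namespace Vale.Agent.Lib.P015

open Complex

/-- Width control: if `H ^ 4` beats `log (c + H)` then `w ^ 4 ≤ log (c + w)` forces `w ≤ H`. -/
lemma width_control {H c w : ℝ} (hH : 1 ≤ H) (hc : 1 ≤ c) (hHc : Real.log (c + H) < H ^ 4)
    (hw : w ^ 4 ≤ Real.log (c + w)) : w ≤ H := by
  by_contra hcon
  push Not at hcon
  have hd : 0 < w - H := by linarith
  have hH3 : 1 ≤ H ^ 3 := one_le_pow₀ hH
  have hw0 : 0 ≤ w := by linarith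
  have h1 : H ^ 4 + (w - H) ≤ w ^ 4 := by
    have e : w ^ 4 - H ^ 4 = (w - H) * (w ^ 3 + w ^ 2 * H + w * H ^ 2 + H ^ 3) := by ring
    have h2 : 1 ≤ w ^ 3 + w ^ 2 * H + w * H ^ 2 + H ^ 3 := by
      have : 0 ≤ w ^ 3 + w ^ 2 * H + w * H ^ 2 := by positivity
      linarith
    have h3 : (w - H) * 1 ≤ (w - H) * (w ^ 3 + w ^ 2 * H + w * H ^ 2 + H ^ 3) :=
      mul_le_mul_of_nonneg_left h2 hd.le
    linarith
  have h2 : Real.log (c + w) ≤ Real.log (c + H) + (w - H) := by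
    have hpos : 0 < c + H := by linarith
    have hq : 0 ≤ (w - H) / (c + H) := div_nonneg hd.le hpos.le
    have e : c + w = (c + H) * (1 + (w - H) / (c + H)) := by
      field_simp
      ring
    rw [e, Real.log_mul (by positivity) (by positivity)]
    have h3 : Real.log (1 + (w - H) / (c + H)) ≤ (w - H) / (c + H) := by
      have := Real.log_le_sub_one_of_pos (show 0 < 1 + (w - H) / (c + H) by positivity)
      linarith
    have h4 : (w - H) / (c + H) ≤ w - H := div_le_self hd.le (by linarith)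
    linarith
  linarith

/-- A large enough `H` beats the size of the block construction. -/
lemma exists_H (D K0 : ℝ) (hD : 0 ≤ D) (hK0 : 0 ≤ K0) :
    ∃ H : ℝ, 1 ≤ H ∧ ∀ R : ℝ, 0 ≤ R → R ≤ D + H + 3 →
      2 * ((2 * R + 1) ^ 2 * (K0 + 4 * R + 8)) + (K0 + 4 * R + 8) + 34 + D + H + 5
        < H ^ 4 := by
  obtain ⟨L, hL⟩ : ∃ L : ℝ, L = 2 * D + 9 := ⟨_, rfl⟩
  obtain ⟨K, hK⟩ : ∃ K : ℝ, K = K0 + 4 * D + 24 := ⟨_, rfl⟩
  obtain ⟨M, hM⟩ : ∃ M : ℝ, M = (2 * L ^ 2 + 1) * K + D + 40 := ⟨_, rfl⟩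
  have hL0 : 0 ≤ L := by linarith
  have hK0' : 0 ≤ K := by linarith
  have hM0 : 0 ≤ M := by
    rw [hM]
    positivity
  refine ⟨M + 1, by linarith, ?_⟩
  intro R hR0 hR
  obtain ⟨H, hH⟩ : ∃ H : ℝ, H = M + 1 := ⟨_, rfl⟩
  rw [← hH] at hR ⊢
  have hH1 : 1 ≤ H := by linarith
  have hH0 : 0 ≤ H := by linarith
  have hH2 : 1 ≤ H ^ 2 := one_le_pow₀ hH1
  have hH3 : 1 ≤ H ^ 3 := one_le_pow₀ hH1
  have hHH3 : H ≤ H ^ 3 := by nlinarith
  have h1 : 2 * R + 1 ≤ L * H := by nlinarith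
  have h2 : K0 + 4 * R + 8 ≤ K * H := by nlinarith
  have h1' : 0 ≤ 2 * R + 1 := by linarith
  have h3 : (2 * R + 1) ^ 2 ≤ (L * H) ^ 2 := pow_le_pow_left₀ h1' h1 2
  have h4 : (2 * R + 1) ^ 2 * (K0 + 4 * R + 8) ≤ (L * H) ^ 2 * (K * H) :=
    mul_le_mul h3 h2 (by linarith) (by positivity)
  have h5 : (L * H) ^ 2 * (K * H) = L ^ 2 * K * H ^ 3 := by ring
  have h6 : K * H ≤ K * H ^ 3 := mul_le_mul_of_nonneg_left hHH3 hK0'
  have h7 : H ^ 4 = M * H ^ 3 + H ^ 3 := by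
    rw [hH]
    ring
  have h8 : M * H ^ 3 = 2 * (L ^ 2 * K * H ^ 3) + K * H ^ 3 + (D + 40) * H ^ 3 := by
    rw [hM]
    ring
  have h9 : D + 40 ≤ (D + 40) * H ^ 3 := by nlinarith
  nlinarith

/-- One-sided confinement for walks in the slowly widening region. -/
lemma horn_bounded_above (D : ℝ) (a v : ℂ) (hv : ‖v‖ = 1) (f : ℕ → GaussianInt)
    (hprime : ∀ n, Prime (f n))
    (hperp : ∀ n, |perp v ((f n : ℂ) - a)| ^ 4 ≤ Real.log (2 + ‖(f n : ℂ)‖))
    (hpar : ∀ n, |par v (f (n + 1) : ℂ) - par v (f n : ℂ)| ≤ D) :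
    ∃ σ : ℝ, ∀ n, par v (f n : ℂ) < σ := by
  have hD : 0 ≤ D := (abs_nonneg _).trans (hpar 0)
  obtain ⟨B, hB⟩ : ∃ B : ℝ, B = par v (f 0 : ℂ) + D + 1 := ⟨_, rfl⟩
  obtain ⟨H, hH1, hHR⟩ := exists_H D (|B| + 3 * ‖a‖) hD (by positivity)
  obtain ⟨R, hR1, hR2⟩ : ∃ R : ℤ, D + H + 2 ≤ R ∧ (R : ℝ) ≤ D + H + 3 :=
    ⟨⌈D + H + 2⌉, Int.le_ceil _, by
      have := Int.ceil_lt_add_one (D + H + 2)
      linarith⟩
  have hRr : (0 : ℝ) ≤ R := by linarith
  have hR0 : 0 ≤ R := by exact_mod_cast hRr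
  obtain ⟨z0, hz1, hz2, hz3, hz4⟩ := exists_block_bdd hv a R hR0 B
  have hHfin := hHR R hRr hR2
  have hz0n : 0 ≤ ‖(z0 : ℂ)‖ := norm_nonneg _
  have hlog : Real.log ((4 + D + ‖(z0 : ℂ)‖) + H) < H ^ 4 := by
    obtain ⟨E, hE⟩ : ∃ E : ℝ, E = 2 * ((2 * (R : ℝ) + 1) ^ 2 * (|B| + 3 * ‖a‖ + 4 * R + 8))
        + (|B| + 3 * ‖a‖ + 4 * R + 8) + 34 := ⟨_, rfl⟩
    rw [← hE] at hz4 hHfin
    have hE0 : 0 ≤ E := by
      rw [hE]
      positivity
    have h1 : (4 + D + ‖(z0 : ℂ)‖) + H ≤ Real.exp (4 + D + H + E) := by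
      have e1 : Real.exp (4 + D + H + E) = Real.exp (4 + D + H) * Real.exp E :=
        Real.exp_add _ _
      have e2 := Real.add_one_le_exp (4 + D + H)
      have e3 : 1 ≤ Real.exp E := by linarith [Real.add_one_le_exp E]
      rw [e1]
      nlinarith
    have hpos : 0 < (4 + D + ‖(z0 : ℂ)‖) + H := by positivity
    calc Real.log ((4 + D + ‖(z0 : ℂ)‖) + H)
        ≤ Real.log (Real.exp (4 + D + H + E)) := Real.log_le_log hpos h1
      _ = 4 + D + H + E := Real.log_exp _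
      _ < H ^ 4 := by linarith
  have hno : ∀ n, ¬ (|par v (f n : ℂ) - par v (z0 : ℂ)| ≤ D) := by
    intro n hn
    obtain ⟨w, hwdef⟩ : ∃ w : ℝ, w = |perp v ((f n : ℂ) - a)| := ⟨_, rfl⟩
    have hw0 : 0 ≤ w := by
      rw [hwdef]
      exact abs_nonneg _
    have hdiff : perp v ((f n : ℂ) - (z0 : ℂ))
        = perp v ((f n : ℂ) - a) - perp v ((z0 : ℂ) - a) := by
      rw [← perp_sub]; congr 1; ring
    have hperpdiff : |perp v ((f n : ℂ) - (z0 : ℂ))| ≤ w + 2 := by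
      rw [hdiff, hwdef]
      have := abs_sub (perp v ((f n : ℂ) - a)) (perp v ((z0 : ℂ) - a))
      linarith
    have hnormfn : ‖(f n : ℂ)‖ ≤ ‖(z0 : ℂ)‖ + D + (w + 2) := by
      have e : (f n : ℂ) = (z0 : ℂ) + ((f n : ℂ) - (z0 : ℂ)) := by ring
      have h1 : ‖(f n : ℂ)‖ ≤ ‖(z0 : ℂ)‖ + ‖(f n : ℂ) - (z0 : ℂ)‖ := by
        conv_lhs => rw [e]
        exact norm_add_le _ _
      have h2 := norm_le_par_add_perp hv ((f n : ℂ) - (z0 : ℂ))
      rw [par_sub] at h2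
      linarith
    have hw4 : w ^ 4 ≤ Real.log ((4 + D + ‖(z0 : ℂ)‖) + w) := by
      have h := hperp n
      rw [← hwdef] at h
      have hfn0 : 0 ≤ ‖(f n : ℂ)‖ := norm_nonneg _
      exact h.trans (Real.log_le_log (by positivity) (by linarith))
    have hwH : w ≤ H := width_control hH1 (by linarith) hlog hw4
    have hdist : ‖(f n : ℂ) - (z0 : ℂ)‖ ≤ R := by
      have h1 := norm_sq_eq hv ((f n : ℂ) - (z0 : ℂ))
      rw [par_sub] at h1
      have h3 : |perp v ((f n : ℂ) - (z0 : ℂ))| ≤ H + 2 := by linarith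
      have h4 : (par v (f n : ℂ) - par v (z0 : ℂ)) ^ 2 ≤ D ^ 2 := by
        rw [← sq_abs]
        exact pow_le_pow_left₀ (abs_nonneg _) hn 2
      have h5 : perp v ((f n : ℂ) - (z0 : ℂ)) ^ 2 ≤ (H + 2) ^ 2 := by
        rw [← sq_abs]
        exact pow_le_pow_left₀ (abs_nonneg _) h3 2
      have h6 : ‖(f n : ℂ) - (z0 : ℂ)‖ ^ 2 ≤ (R : ℝ) ^ 2 := by
        have : (D + H + 2) ^ 2 ≤ (R : ℝ) ^ 2 :=
          pow_le_pow_left₀ (by linarith) hR1 2
        nlinarith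
      exact le_of_sq_le_sq h6 hRr
    apply hz3 (f n) _ _ (hprime n)
    · have h1 := Complex.abs_re_le_norm ((f n : ℂ) - (z0 : ℂ))
      rw [← toComplex_sub_re, ← Int.cast_abs] at h1
      have : ((|(f n).re - z0.re| : ℤ) : ℝ) ≤ R := by linarith
      exact_mod_cast this
    · have h1 := Complex.abs_im_le_norm ((f n : ℂ) - (z0 : ℂ))
      rw [← toComplex_sub_im, ← Int.cast_abs] at h1
      have : ((|(f n).im - z0.im| : ℤ) : ℝ) ≤ R := by linarith
      exact_mod_cast this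
  refine ⟨par v (z0 : ℂ) - D, ?_⟩
  intro n
  induction n with
  | zero => linarith
  | succ n ih =>
    by_contra hcon
    push Not at hcon
    apply hno (n + 1)
    rw [abs_le]
    constructor
    · linarith
    · have := abs_le.mp (hpar n)
      linarith [this.2]

/-- No bounded-step walk on distinct Gaussian primes stays in the slowly widening region
`dist(z, line)^4 ≤ log (2 + |z|)` around the line through `a` with unit direction `u`. -/
theorem no_walk_in_horn_unit (D : ℝ) (a u : ℂ) (hu : ‖u‖ = 1) :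
    ¬ ∃ f : ℕ → GaussianInt, Function.Injective f ∧ (∀ n, Prime (f n)) ∧
      (∀ n, ‖(f (n + 1) : ℂ) - (f n : ℂ)‖ ≤ D) ∧
      (∀ n, ∃ s : ℝ, ‖(f n : ℂ) - (a + s * u)‖ ^ 4 ≤ Real.log (2 + ‖(f n : ℂ)‖)) := by
  rintro ⟨f, hinj, hprime, hstep, hnear⟩
  have hperp : ∀ n, |perp u ((f n : ℂ) - a)| ^ 4 ≤ Real.log (2 + ‖(f n : ℂ)‖) := by
    intro n
    obtain ⟨s, hs⟩ := hnear n
    have h1 : (f n : ℂ) - a = ((f n : ℂ) - (a + s * u)) + s * u := by ring
    have h2 : |perp u ((f n : ℂ) - a)| ≤ ‖(f n : ℂ) - (a + s * u)‖ := by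
      rw [h1, perp_add, perp_real_mul hu, add_zero]
      exact abs_perp_le hu _
    exact (pow_le_pow_left₀ (abs_nonneg _) h2 4).trans hs
  have hpar : ∀ n, |par u (f (n + 1) : ℂ) - par u (f n : ℂ)| ≤ D := by
    intro n
    rw [← par_sub]
    exact (abs_par_le hu _).trans (hstep n)
  obtain ⟨σ1, h1⟩ := horn_bounded_above D a u hu f hprime hperp hpar
  have hu' : ‖-u‖ = 1 := by rw [norm_neg]; exact hu
  obtain ⟨σ2, h2⟩ := horn_bounded_above D a (-u) hu' f hprime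
    (by intro n; rw [perp_neg_dir, abs_neg]; exact hperp n)
    (by
      intro n
      rw [par_neg_dir, par_neg_dir]
      have := hpar n
      rw [abs_sub_comm] at this
      have e : -par u (f (n + 1) : ℂ) - -par u (f n : ℂ)
          = par u (f n : ℂ) - par u (f (n + 1) : ℂ) := by ring
      rw [e]
      exact this)
  obtain ⟨S, hS⟩ : ∃ S : ℝ, S = max σ1 σ2 + |perp u a| := ⟨_, rfl⟩
  have hbound : ∀ n, ‖(f n : ℂ)‖ ≤ 2 * S + 2 := by
    intro n
    obtain ⟨w, hwdef⟩ : ∃ w : ℝ, w = |perp u ((f n : ℂ) - a)| := ⟨_, rfl⟩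
    have hw0 : 0 ≤ w := by
      rw [hwdef]
      exact abs_nonneg _
    have e1 := norm_le_par_add_perp hu (f n : ℂ)
    have e2 : |par u (f n : ℂ)| ≤ max σ1 σ2 := by
      rw [abs_le]
      have a1 := h1 n
      have a2 := h2 n
      rw [par_neg_dir] at a2
      constructor
      · have := le_max_right σ1 σ2
        linarith
      · have := le_max_left σ1 σ2
        linarith
    have e3 : |perp u (f n : ℂ)| ≤ w + |perp u a| := by
      have e : perp u (f n : ℂ) = perp u ((f n : ℂ) - a) + perp u a := by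
        rw [← perp_add]; congr 1; ring
      rw [e, hwdef]
      exact abs_add_le _ _
    have e4 : ‖(f n : ℂ)‖ ≤ S + w := by linarith
    have hS0 : 0 ≤ S := by
      have := abs_nonneg (par u (f n : ℂ))
      have := abs_nonneg (perp u a)
      linarith
    have e5 : w ^ 4 ≤ 1 + S + w := by
      have h := hperp n
      rw [← hwdef] at h
      have hfn0 : 0 ≤ ‖(f n : ℂ)‖ := norm_nonneg _
      have := Real.log_le_sub_one_of_pos (show 0 < 2 + ‖(f n : ℂ)‖ by positivity)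
      linarith
    have e6 : w ≤ S + 2 := by
      by_contra hcon
      push Not at hcon
      have hw2 : 2 ≤ w := by linarith
      have h8 : 8 * w ≤ w ^ 4 := by
        have e : w ^ 4 - 8 * w = w * (w - 2) * (w ^ 2 + 2 * w + 4) := by ring
        have : 0 ≤ w * (w - 2) * (w ^ 2 + 2 * w + 4) := by
          apply mul_nonneg (mul_nonneg hw0 (by linarith)) (by positivity)
        linarith
      linarith
    linarith
  have hfin := finite_norm_le (2 * S + 2)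
  have hsub : Set.range f ⊆ {z : GaussianInt | ‖(z : ℂ)‖ ≤ 2 * S + 2} := by
    rintro _ ⟨n, rfl⟩
    exact hbound n
  exact Set.infinite_range_of_injective hinj (hfin.subset hsub)

end Vale.Agent.Lib.P015
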