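import Vale.Agent.Lib.P015.Basic

namespace Vale.Agent.Lib.P015

open Complex

/-- Coordinate of `z` along the unit direction `u`. -/
noncomputable def par (u z : ℂ) : ℝ := (z * (starRingEnd ℂ) u).re

/-- Coordinate of `z` orthogonal to the unit direction `u`. -/
noncomputable def perp (u z : ℂ) : ℝ := (z * (starRingEnd ℂ) u).im

lemma par_add (u z w : ℂ) : par u (z + w) = par u z + par u w := by simp [par, add_mul]
lemma perp_add (u z w : ℂ) : perp u (z + w) = perp u z + perp u w := by simp [perp, add_mul]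
lemma par_sub (u z w : ℂ) : par u (z - w) = par u z - par u w := by simp [par, sub_mul]
lemma perp_sub (u z w : ℂ) : perp u (z - w) = perp u z - perp u w := by simp [perp, sub_mul]
lemma par_neg_dir (u z : ℂ) : par (-u) z = - par u z := by simp [par]
lemma perp_neg_dir (u z : ℂ) : perp (-u) z = - perp u z := by simp [perp]
lemma par_neg (u z : ℂ) : par u (-z) = - par u z := by simp [par]
lemma perp_neg (u z : ℂ) : perp u (-z) = - perp u z := by simp [perp]

lemma norm_rot {u : ℂ} (hu : ‖u‖ = 1) (z : ℂ) : ‖z * (starRingEnd ℂ) u‖ = ‖z‖ := by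
  rw [norm_mul, RCLike.norm_conj, hu, mul_one]

lemma abs_par_le {u : ℂ} (hu : ‖u‖ = 1) (z : ℂ) : |par u z| ≤ ‖z‖ := by
  have := Complex.abs_re_le_norm (z * (starRingEnd ℂ) u)
  rwa [norm_rot hu] at this

lemma abs_perp_le {u : ℂ} (hu : ‖u‖ = 1) (z : ℂ) : |perp u z| ≤ ‖z‖ := by
  have := Complex.abs_im_le_norm (z * (starRingEnd ℂ) u)
  rwa [norm_rot hu] at this

lemma norm_le_par_add_perp {u : ℂ} (hu : ‖u‖ = 1) (z : ℂ) :
    ‖z‖ ≤ |par u z| + |perp u z| := by
  have := Complex.norm_le_abs_re_add_abs_im (z * (starRingEnd ℂ) u)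
  rwa [norm_rot hu] at this

lemma norm_sq_eq {u : ℂ} (hu : ‖u‖ = 1) (z : ℂ) :
    ‖z‖ ^ 2 = par u z ^ 2 + perp u z ^ 2 := by
  rw [← norm_rot hu z, Complex.sq_norm, Complex.normSq_apply]
  simp only [par, perp]
  ring

lemma par_real_mul {u : ℂ} (hu : ‖u‖ = 1) (s : ℝ) : par u (s * u) = s := by
  unfold par
  rw [mul_assoc, Complex.mul_conj, Complex.normSq_eq_norm_sq, hu]
  simp

lemma perp_real_mul {u : ℂ} (hu : ‖u‖ = 1) (s : ℝ) : perp u (s * u) = 0 := by
  unfold perp
  rw [mul_assoc, Complex.mul_conj, Complex.normSq_eq_norm_sq, hu]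
  simp

/-- Dirichlet: some nonzero Gaussian integer multiple of `q` is nearly real. -/
lemma exists_small_im (q : ℂ) : ∃ t : GaussianInt, t ≠ 0 ∧ |(q * (t : ℂ)).im| ≤ 1 := by
  by_cases hβ : q.im = 0
  · refine ⟨1, one_ne_zero, ?_⟩
    simp [hβ]
  · obtain ⟨N, hN⟩ := exists_nat_ge |q.im|
    obtain ⟨j, k, hk0, hk1, hjk⟩ :=
      Real.exists_int_int_abs_mul_sub_le (q.re / q.im) (Nat.succ_pos N)
    refine ⟨⟨-j, k⟩, ?_, ?_⟩
    · intro h
      have := congrArg Zsqrtd.im h
      simp at this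
      omega
    · have him : (q * ((⟨-j, k⟩ : GaussianInt) : ℂ)).im
          = q.im * (k * (q.re / q.im) - j) := by
        rw [GaussianInt.toComplex_def']
        simp [Complex.mul_im]
        field_simp
        ring
      rw [him, abs_mul]
      have hN' : (0 : ℝ) < (N.succ : ℝ) + 1 := by positivity
      calc |q.im| * |(k : ℝ) * (q.re / q.im) - j|
          ≤ |q.im| * (1 / ((N.succ : ℝ) + 1)) := by gcongr
        _ ≤ 1 := by
          rw [mul_one_div, div_le_one hN']
          push_cast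
          linarith

end Vale.Agent.Lib.P015
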