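import Vale.Agent.Lib.P015.Strip

namespace Vale.Agent.Lib.P015

open Complex

lemma toComplex_sub_re (z w : GaussianInt) :
    (((z.re - w.re : ℤ) : ℝ)) = ((z : ℂ) - (w : ℂ)).re := by
  rw [Int.cast_sub, GaussianInt.intCast_re, GaussianInt.intCast_re, Complex.sub_re]

lemma toComplex_sub_im (z w : GaussianInt) :
    (((z.im - w.im : ℤ) : ℝ)) = ((z : ℂ) - (w : ℂ)).im := by
  rw [Int.cast_sub, GaussianInt.intCast_im, GaussianInt.intCast_im, Complex.sub_im]

/-- Existence of prime-free boxes near the line `a + ℝ u`, arbitrarily far in the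
direction `u`. -/
lemma exists_block {u : ℂ} (hu : ‖u‖ = 1) (a : ℂ) (R : ℤ) (hR : 0 ≤ R) (B : ℝ) :
    ∃ z0 : GaussianInt, |perp u ((z0 : ℂ) - a)| ≤ 2 ∧ B ≤ par u (z0 : ℂ) ∧
      ∀ z : GaussianInt, |z.re - z0.re| ≤ R → |z.im - z0.im| ≤ R → ¬ Prime z := by
  have hRr : (0 : ℝ) ≤ R := by exact_mod_cast hR
  obtain ⟨S, hS1, hS2⟩ : ∃ S : ℝ, B - par u a + 1 ≤ S ∧ ‖a‖ + 2 * R + 6 ≤ S :=
    ⟨max (B - par u a + 1) (‖a‖ + 2 * R + 6), le_max_left _ _, le_max_right _ _⟩
  have hS0 : 0 ≤ S := by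
    have := norm_nonneg a
    linarith
  obtain ⟨p, hp⟩ : ∃ p : ℂ, p = a + S * u := ⟨_, rfl⟩
  obtain ⟨c, hc⟩ : ∃ c : GaussianInt, c = ⟨round p.re, round p.im⟩ := ⟨_, rfl⟩
  have hcp : ‖(c : ℂ) - p‖ ≤ 1 := by
    have h1 := Complex.norm_le_abs_re_add_abs_im ((c : ℂ) - p)
    have h2 : |((c : ℂ) - p).re| ≤ 1 / 2 := by
      rw [hc, GaussianInt.toComplex_def']
      simp only [Complex.sub_re, Complex.add_re, Complex.intCast_re, Complex.mul_re,
        Complex.intCast_im, Complex.I_re, Complex.I_im, mul_zero, mul_one, sub_zero,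
        add_zero]
      rw [abs_sub_comm]
      exact abs_sub_round p.re
    have h3 : |((c : ℂ) - p).im| ≤ 1 / 2 := by
      rw [hc, GaussianInt.toComplex_def']
      simp only [Complex.sub_im, Complex.add_im, Complex.intCast_im, Complex.mul_im,
        Complex.intCast_re, Complex.I_re, Complex.I_im, mul_zero, mul_one, zero_add,
        add_zero]
      rw [abs_sub_comm]
      exact abs_sub_round p.im
    linarith
  -- coordinates of `c`
  have hc1 : (c : ℂ) - a = ((c : ℂ) - p) + S * u := by rw [hp]; ring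
  have hperp_c : |perp u ((c : ℂ) - a)| ≤ 1 := by
    rw [hc1, perp_add, perp_real_mul hu, add_zero]
    exact (abs_perp_le hu _).trans hcp
  have hpar_c : par u a + S - 1 ≤ par u (c : ℂ) := by
    have h1 : (c : ℂ) = ((c : ℂ) - p) + (a + S * u) := by rw [hp]; ring
    have h2 : par u (c : ℂ) = par u ((c : ℂ) - p) + (par u a + S) := by
      conv_lhs => rw [h1]
      rw [par_add, par_add, par_real_mul hu]
    have h3 := abs_le.mp ((abs_par_le hu ((c : ℂ) - p)).trans hcp)
    linarith [h3.1]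
  -- `c` is far from the origin
  have hnorm_c : 2 * (R : ℝ) + 5 ≤ ‖(c : ℂ)‖ := by
    have h1 := abs_par_le hu (c : ℂ)
    have h2 := le_abs_self (par u (c : ℂ))
    have h3 := abs_le.mp (abs_par_le hu a)
    linarith [h3.1]
  have hcoord : R + 2 < |c.re| ∨ R + 2 < |c.im| := by
    by_contra hcon
    push Not at hcon
    have h1 := Complex.norm_le_abs_re_add_abs_im (c : ℂ)
    rw [← GaussianInt.intCast_re, ← GaussianInt.intCast_im] at h1
    have h2 : ((|c.re| : ℤ) : ℝ) ≤ R + 2 := by exact_mod_cast hcon.1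
    have h3 : ((|c.im| : ℤ) : ℝ) ≤ R + 2 := by exact_mod_cast hcon.2
    rw [Int.cast_abs] at h2 h3
    linarith
  have hW : ∀ w ∈ box R, ¬ IsUnit (c + w) ∧ c + w ≠ 0 := by
    intro w hw
    rw [mem_box] at hw
    rcases hcoord with h | h
    · have h2 : 2 ≤ |(c + w).re| := by
        have e : (c + w).re = c.re + w.re := by simp
        rw [e]
        have := abs_sub_abs_le_abs_sub c.re (-w.re)
        rw [abs_neg, sub_neg_eq_add] at this
        linarith [hw.1]
      refine ⟨not_isUnit_of_two_le_abs_re h2, ?_⟩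
      intro h0
      rw [h0] at h2
      simp at h2
    · have h2 : 2 ≤ |(c + w).im| := by
        have e : (c + w).im = c.im + w.im := by simp
        rw [e]
        have := abs_sub_abs_le_abs_sub c.im (-w.im)
        rw [abs_neg, sub_neg_eq_add] at this
        linarith [hw.2]
      refine ⟨not_isUnit_of_two_le_abs_im h2, ?_⟩
      intro h0
      rw [h0] at h2
      simp at h2
  obtain ⟨Q, hQ⟩ : ∃ Q : GaussianInt, Q = 3 * ∏ v ∈ box R, (c + v) := ⟨_, rfl⟩
  -- Dirichlet alignment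
  obtain ⟨t, ht0, htperp, htpar⟩ : ∃ t : GaussianInt, t ≠ 0 ∧
      |perp u ((Q : ℂ) * (t : ℂ))| ≤ 1 ∧ 0 ≤ par u ((Q : ℂ) * (t : ℂ)) := by
    obtain ⟨t0, ht0, h⟩ := exists_small_im ((Q : ℂ) * (starRingEnd ℂ) u)
    have e : (Q : ℂ) * (starRingEnd ℂ) u * (t0 : ℂ) = (Q : ℂ) * (t0 : ℂ) * (starRingEnd ℂ) u := by
      ring
    rw [e] at h
    by_cases hsign : 0 ≤ par u ((Q : ℂ) * (t0 : ℂ))
    · exact ⟨t0, ht0, h, hsign⟩
    · refine ⟨-t0, neg_ne_zero.mpr ht0, ?_, ?_⟩
      · have e2 : (Q : ℂ) * ((-t0 : GaussianInt) : ℂ) = -((Q : ℂ) * (t0 : ℂ)) := by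
          rw [GaussianInt.toComplex_neg]; ring
        rw [e2, perp_neg, abs_neg]
        exact h
      · have e2 : (Q : ℂ) * ((-t0 : GaussianInt) : ℂ) = -((Q : ℂ) * (t0 : ℂ)) := by
          rw [GaussianInt.toComplex_neg]; ring
        rw [e2, par_neg]
        push Not at hsign
        linarith
  refine ⟨c + Q * t, ?_, ?_, ?_⟩
  · have e : ((c + Q * t : GaussianInt) : ℂ) - a = ((c : ℂ) - a) + (Q : ℂ) * (t : ℂ) := by
      rw [GaussianInt.toComplex_add, GaussianInt.toComplex_mul]; ring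
    rw [e, perp_add]
    have := abs_add_le (perp u ((c : ℂ) - a)) (perp u ((Q : ℂ) * (t : ℂ)))
    linarith
  · have e : ((c + Q * t : GaussianInt) : ℂ) = (c : ℂ) + (Q : ℂ) * (t : ℂ) := by
      rw [GaussianInt.toComplex_add, GaussianInt.toComplex_mul]
    rw [e, par_add]
    linarith
  · intro z hz1 hz2
    have hw : z - (c + Q * t) ∈ box R := by
      rw [mem_box]
      constructor
      · simpa using hz1
      · simpa using hz2
    have := not_prime_of_mem (box R) c hW t ht0 _ hw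
    have e : c + 3 * (∏ v ∈ box R, (c + v)) * t + (z - (c + Q * t)) = z := by
      rw [hQ]; ring
    rwa [e] at this


/-- Gaussian integers of bounded modulus form a finite set. -/
lemma finite_norm_le (B : ℝ) : {z : GaussianInt | ‖(z : ℂ)‖ ≤ B}.Finite := by
  obtain ⟨M, hM⟩ := exists_int_ge B
  apply Set.Finite.subset (Finset.finite_toSet (box M))
  intro z hz
  simp only [Set.mem_setOf_eq] at hz
  rw [Finset.mem_coe, mem_box]
  constructor
  · have h1 := Complex.abs_re_le_norm (z : ℂ)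
    rw [← GaussianInt.intCast_re, ← Int.cast_abs] at h1
    have : ((|z.re| : ℤ) : ℝ) ≤ M := by linarith
    exact_mod_cast this
  · have h1 := Complex.abs_im_le_norm (z : ℂ)
    rw [← GaussianInt.intCast_im, ← Int.cast_abs] at h1
    have : ((|z.im| : ℤ) : ℝ) ≤ M := by linarith
    exact_mod_cast this

/-- One-sided confinement: a bounded-step walk on Gaussian primes that stays within
bounded distance of the line `a + ℝ v` cannot pass a prime-free box. -/
lemma walk_bounded_above (D H : ℝ) (a v : ℂ) (hv : ‖v‖ = 1) (f : ℕ → GaussianInt)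
    (hprime : ∀ n, Prime (f n))
    (hperp : ∀ n, |perp v ((f n : ℂ) - a)| ≤ H)
    (hpar : ∀ n, |par v (f (n + 1) : ℂ) - par v (f n : ℂ)| ≤ D) :
    ∃ σ : ℝ, ∀ n, par v (f n : ℂ) < σ := by
  have hD : 0 ≤ D := (abs_nonneg _).trans (hpar 0)
  have hH : 0 ≤ H := (abs_nonneg _).trans (hperp 0)
  obtain ⟨R, hR⟩ := exists_int_ge (D + H + 2)
  have hR0 : 0 ≤ R := by
    have : (0 : ℝ) ≤ R := by linarith
    exact_mod_cast this
  obtain ⟨z0, hz1, hz2, hz3⟩ := exists_block hv a R hR0 (par v (f 0 : ℂ) + D + 1)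
  have hno : ∀ n, ¬ (|par v (f n : ℂ) - par v (z0 : ℂ)| ≤ D) := by
    intro n hn
    have hdist : ‖(f n : ℂ) - (z0 : ℂ)‖ ≤ R := by
      have h1 := norm_sq_eq hv ((f n : ℂ) - (z0 : ℂ))
      have h2 : perp v ((f n : ℂ) - (z0 : ℂ))
          = perp v ((f n : ℂ) - a) - perp v ((z0 : ℂ) - a) := by
        rw [← perp_sub]; congr 1; ring
      have h3 : |perp v ((f n : ℂ) - (z0 : ℂ))| ≤ H + 2 := by
        rw [h2]
        have := abs_sub (perp v ((f n : ℂ) - a)) (perp v ((z0 : ℂ) - a))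
        linarith [hperp n]
      rw [par_sub] at h1
      have h4 : (par v (f n : ℂ) - par v (z0 : ℂ)) ^ 2 ≤ D ^ 2 := by
        rw [← sq_abs]
        exact pow_le_pow_left₀ (abs_nonneg _) hn 2
      have h5 : perp v ((f n : ℂ) - (z0 : ℂ)) ^ 2 ≤ (H + 2) ^ 2 := by
        rw [← sq_abs]
        exact pow_le_pow_left₀ (abs_nonneg _) h3 2
      have h6 : ‖(f n : ℂ) - (z0 : ℂ)‖ ^ 2 ≤ (R : ℝ) ^ 2 := by
        have : (D + H + 2) ^ 2 ≤ (R : ℝ) ^ 2 :=
          pow_le_pow_left₀ (by linarith) hR 2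
        nlinarith
      have hRr : (0 : ℝ) ≤ R := by exact_mod_cast hR0
      exact le_of_sq_le_sq h6 hRr
    apply hz3 (f n) _ _ (hprime n)
    · have h1 := Complex.abs_re_le_norm ((f n : ℂ) - (z0 : ℂ))
      rw [← toComplex_sub_re, ← Int.cast_abs] at h1
      have : ((|(f n).re - z0.re| : ℤ) : ℝ) ≤ R := by linarith
      exact_mod_cast this
    · have h1 := Complex.abs_im_le_norm ((f n : ℂ) - (z0 : ℂ))
      rw [← toComplex_sub_im, ← Int.cast_abs] at h1
      have : ((|(f n).im - z0.im| : ℤ) : ℝ) ≤ R := by linarith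
      exact_mod_cast this
  refine ⟨par v (z0 : ℂ) - D, ?_⟩
  intro n
  induction n with
  | zero => linarith
  | succ n ih =>
    by_contra hcon
    push Not at hcon
    apply hno (n + 1)
    rw [abs_le]
    constructor
    · linarith
    · have := abs_le.mp (hpar n)
      linarith [this.2]

/-- No bounded-step walk on distinct Gaussian primes stays within bounded distance
of the line through `a` with unit direction `u`. -/
theorem no_walk_near_unit_line (D H : ℝ) (a u : ℂ) (hu : ‖u‖ = 1) :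
    ¬ ∃ f : ℕ → GaussianInt, Function.Injective f ∧ (∀ n, Prime (f n)) ∧
      (∀ n, ‖(f (n + 1) : ℂ) - (f n : ℂ)‖ ≤ D) ∧
      (∀ n, ∃ s : ℝ, ‖(f n : ℂ) - (a + s * u)‖ ≤ H) := by
  rintro ⟨f, hinj, hprime, hstep, hnear⟩
  have hperp : ∀ n, |perp u ((f n : ℂ) - a)| ≤ H := by
    intro n
    obtain ⟨s, hs⟩ := hnear n
    have h1 : (f n : ℂ) - a = ((f n : ℂ) - (a + s * u)) + s * u := by ring
    rw [h1, perp_add, perp_real_mul hu, add_zero]
    exact (abs_perp_le hu _).trans hs
  have hpar : ∀ n, |par u (f (n + 1) : ℂ) - par u (f n : ℂ)| ≤ D := by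
    intro n
    rw [← par_sub]
    exact (abs_par_le hu _).trans (hstep n)
  obtain ⟨σ1, h1⟩ := walk_bounded_above D H a u hu f hprime hperp hpar
  have hu' : ‖-u‖ = 1 := by rw [norm_neg]; exact hu
  obtain ⟨σ2, h2⟩ := walk_bounded_above D H a (-u) hu' f hprime
    (by intro n; rw [perp_neg_dir, abs_neg]; exact hperp n)
    (by
      intro n
      rw [par_neg_dir, par_neg_dir]
      have := hpar n
      rw [abs_sub_comm] at this
      have e : -par u (f (n + 1) : ℂ) - -par u (f n : ℂ)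
          = par u (f n : ℂ) - par u (f (n + 1) : ℂ) := by ring
      rw [e]
      exact this)
  have hbound : ∀ n, ‖(f n : ℂ)‖ ≤ max σ1 σ2 + (H + |perp u a|) := by
    intro n
    have e1 := norm_le_par_add_perp hu (f n : ℂ)
    have e2 : |par u (f n : ℂ)| ≤ max σ1 σ2 := by
      rw [abs_le]
      have a1 := h1 n
      have a2 := h2 n
      rw [par_neg_dir] at a2
      constructor
      · have := le_max_right σ1 σ2
        linarith
      · have := le_max_left σ1 σ2
        linarith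
    have e3 : |perp u (f n : ℂ)| ≤ H + |perp u a| := by
      have e : perp u (f n : ℂ) = perp u ((f n : ℂ) - a) + perp u a := by
        rw [← perp_add]; congr 1; ring
      rw [e]
      have := abs_add_le (perp u ((f n : ℂ) - a)) (perp u a)
      linarith [hperp n]
    linarith
  have hfin := finite_norm_le (max σ1 σ2 + (H + |perp u a|))
  have hsub : Set.range f ⊆ {z : GaussianInt | ‖(z : ℂ)‖ ≤ max σ1 σ2 + (H + |perp u a|)} := by
    rintro _ ⟨n, rfl⟩
    exact hbound n
  exact Set.infinite_range_of_injective hinj (hfin.subset hsub)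

end Vale.Agent.Lib.P015
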